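import Mathlib

/-!
Existence of norming states and of norming representations of a unital C*-algebra.
-/

namespace Vale.Agent.P083

open scoped InnerProductSpace ComplexOrder

universe u

lemma im_eq_zero_of_unital {B : Type u} [CStarAlgebra B] [Nontrivial B] (g : B →L[ℂ] ℂ)
    (hg : ‖g‖ ≤ 1) (h1 : g 1 = 1) {x : B} (hx : IsSelfAdjoint x) : (g x).im = 0 := by
  have key : ∀ t : ℝ, 2 * t * (g x).im ≤ ‖x‖ ^ 2 := by
    intro t
    set y : B := x + ((t : ℂ) * Complex.I) • (1 : B) with hy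
    have e1 : star y * y = x * x + ((t ^ 2 : ℝ) : ℂ) • (1 : B) := by
      simp only [hy, star_add, star_smul, star_one, hx.star_eq, add_mul, mul_add, smul_mul_assoc,
        mul_smul_comm, one_mul, mul_one, smul_smul, star_mul', Complex.star_def,
        Complex.conj_ofReal, Complex.conj_I, smul_add]
      have : (t : ℂ) * Complex.I * (t * -Complex.I) = ((t ^ 2 : ℝ) : ℂ) := by
        push_cast
        linear_combination (-(t : ℂ) ^ 2) * Complex.I_mul_I
      rw [this, mul_neg, neg_smul]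
      abel
    have e2 : ‖y‖ ^ 2 ≤ ‖x‖ ^ 2 + t ^ 2 := by
      rw [sq ‖y‖, ← CStarRing.norm_star_mul_self, e1]
      refine (norm_add_le _ _).trans (add_le_add ?_ ?_)
      · rw [sq]; exact norm_mul_le _ _
      · rw [norm_smul, norm_one, mul_one, Complex.norm_real, Real.norm_of_nonneg (sq_nonneg t)]
    have e3 : ‖g y‖ ≤ ‖y‖ := (g.le_opNorm y).trans (mul_le_of_le_one_left (norm_nonneg _) hg)
    have e4 : (g y).im = (g x).im + t := by simp [hy, h1]
    have e5 : (g y).im ^ 2 ≤ ‖g y‖ ^ 2 := by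
      rw [← sq_abs]; gcongr; exact Complex.abs_im_le_norm _
    have e6 : ‖g y‖ ^ 2 ≤ ‖y‖ ^ 2 := by gcongr
    rw [e4] at e5
    nlinarith [sq_nonneg (g x).im]
  by_contra hne
  have := key ((‖x‖ ^ 2 + 1) / (2 * (g x).im))
  field_simp at this
  linarith

lemma exists_state {B : Type u} [CStarAlgebra B] [PartialOrder B] [StarOrderedRing B]
    [Nontrivial B] (a : B) (ha : 0 ≤ a) : ∃ f : B →ₚ[ℂ] ℂ, f 1 = 1 ∧ f a = ‖a‖ := by
  obtain ⟨g, hg, hga⟩ := exists_dual_vector'' ℂ (1 + a)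
  have hle : ∀ y, ‖g y‖ ≤ ‖y‖ := fun y =>
    (g.le_opNorm y).trans (mul_le_of_le_one_left (norm_nonneg _) hg)
  have hn : 1 + ‖a‖ ≤ ‖1 + a‖ := by
    have h1 : ‖a‖ ∈ spectrum ℝ a := CStarAlgebra.norm_mem_spectrum_of_nonneg ha
    have h2 : 1 + ‖a‖ ∈ spectrum ℝ (algebraMap ℝ B 1 + a) := by
      rw [add_comm (1 : ℝ)]; exact spectrum.add_mem_add_iff.2 h1
    have h3 := spectrum.norm_le_norm_of_mem h2
    rwa [map_one, Real.norm_of_nonneg (by positivity)] at h3
  have r1 : (g 1).re ≤ 1 := (Complex.re_le_norm _).trans ((hle 1).trans norm_one.le)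
  have r2 : (g a).re ≤ ‖a‖ := (Complex.re_le_norm _).trans (hle a)
  have r3 : (g 1).re + (g a).re = ‖1 + a‖ := by
    rw [← Complex.add_re, ← map_add, hga]; simp
  have r4 : (g 1).re = 1 := by linarith
  have h1 : g 1 = 1 := by
    have e : ‖g 1‖ ^ 2 ≤ 1 := by
      have := (hle 1).trans norm_one.le
      nlinarith [norm_nonneg (g 1)]
    rw [Complex.sq_norm, Complex.normSq_apply, r4] at e
    have : (g 1).im = 0 := by nlinarith
    exact Complex.ext r4 this
  have hpos : ∀ x : B, 0 ≤ x → 0 ≤ g x := by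
    intro x hx
    have hs : IsSelfAdjoint x := hx.isSelfAdjoint
    refine Complex.nonneg_iff.2 ⟨?_, (im_eq_zero_of_unital g hg h1 hs).symm⟩
    have e1 : 0 ≤ algebraMap ℝ B ‖x‖ - x := sub_nonneg.2 hs.le_algebraMap_norm_self
    have e2 : ‖algebraMap ℝ B ‖x‖ - x‖ ≤ ‖x‖ :=
      (CStarAlgebra.norm_le_iff_le_algebraMap _ (norm_nonneg x) e1).2 (sub_le_self _ hx)
    have e3 := (Complex.re_le_norm _).trans ((hle _).trans e2)
    rw [map_sub, Algebra.algebraMap_eq_smul_one, g.map_smul_of_tower, h1] at e3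
    simpa using e3
  refine ⟨PositiveLinearMap.mk₀ g.toLinearMap hpos, h1, ?_⟩
  change g a = _
  exact Complex.ext (by simp; linarith)
    (by simpa using im_eq_zero_of_unital g hg h1 ha.isSelfAdjoint)

theorem exists_rep {B : Type u} [CStarAlgebra B] [Nontrivial B] (q : B) :
    ∃ (H : Type u) (_ : NormedAddCommGroup H) (_ : InnerProductSpace ℂ H) (_ : CompleteSpace H)
      (π : B →⋆ₐ[ℂ] (H →L[ℂ] H)) (h : H), ‖h‖ = 1 ∧ ‖π q h‖ = ‖q‖ := by
  letI := CStarAlgebra.spectralOrder B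
  haveI := CStarAlgebra.spectralOrderedRing B
  obtain ⟨f, hf1, hfq⟩ := exists_state (star q * q) (star_mul_self_nonneg q)
  refine ⟨f.GNS, inferInstance, inferInstance, inferInstance, f.gnsStarAlgHom,
    (f.toPreGNS 1 : f.PreGNS), ?_, ?_⟩
  · rw [UniformSpace.Completion.norm_coe, f.preGNS_norm_def]
    simp [hf1]
  · have : f.gnsStarAlgHom q (f.toPreGNS 1 : f.PreGNS) = (f.toPreGNS q : f.PreGNS) := by
      change f.gnsNonUnitalStarAlgHom q _ = _
      rw [f.gnsNonUnitalStarAlgHom_apply_coe]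
      simp
    rw [this, UniformSpace.Completion.norm_coe, f.preGNS_norm_def]
    simp [hfq, CStarRing.norm_star_mul_self]

end Vale.Agent.P083
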